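import Vale.Agent.P144Z.C.Alg

/-!
The norm of the fermion operator; finite range and locality of the covariances.
-/

namespace Vale.Agent.P144Z

open Finset Matrix Polynomial

variable {S : Type} [Fintype S] [DecidableEq S]

namespace C

theorem schur {D : Matrix S S ℝ} (hD : Dᵀ = -D) (h : ∀ s, ∑ t, |D s t| ≤ 4) : IsD D := by
  refine ⟨hD, fun v => ?_⟩
  have h' : ∀ t, ∑ s, |D s t| ≤ 4 := by
    intro t
    refine le_of_eq_of_le (sum_congr rfl fun s _ => ?_) (h t)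
    have := congrFun (congrFun hD t) s
    simp only [transpose_apply, Matrix.neg_apply] at this
    rw [this, abs_neg]
  have h1 : ∀ s, (D *ᵥ v) s * (D *ᵥ v) s ≤ 4 * ∑ t, |D s t| * v t ^ 2 := by
    intro s
    have h2 : (∑ t, |D s t| * |v t|) ^ 2 ≤ (∑ t, |D s t|) * ∑ t, |D s t| * v t ^ 2 := by
      refine sum_sq_le_sum_mul_sum_of_sq_le_mul univ (fun _ _ => abs_nonneg _)
        (fun _ _ => by positivity) fun t _ => le_of_eq ?_
      rw [mul_pow, sq_abs (v t)]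
      ring
    have h3 : |(D *ᵥ v) s| ≤ ∑ t, |D s t| * |v t| := by
      simp only [mulVec, dotProduct, ← abs_mul]
      exact abs_sum_le_sum_abs _ _
    have h4 : 0 ≤ ∑ t, |D s t| * v t ^ 2 := sum_nonneg fun _ _ => by positivity
    calc _ = |(D *ᵥ v) s| ^ 2 := by rw [sq_abs, sq]
      _ ≤ (∑ t, |D s t| * |v t|) ^ 2 := by gcongr
      _ ≤ (∑ t, |D s t|) * ∑ t, |D s t| * v t ^ 2 := h2
      _ ≤ _ := by gcongr; exact h s
  calc (D *ᵥ v) ⬝ᵥ (D *ᵥ v) ≤ ∑ s, 4 * ∑ t, |D s t| * v t ^ 2 := sum_le_sum fun s _ => h1 s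
    _ = 4 * ∑ t, (∑ s, |D s t|) * v t ^ 2 := by
        rw [← mul_sum, sum_comm]
        simp only [sum_mul]
    _ ≤ 4 * ∑ t, 4 * v t ^ 2 := by gcongr with t; exact h' t
    _ = 16 * (v ⬝ᵥ v) := by
        rw [← mul_sum, dotProduct]
        simp only [sq]
        ring

theorem sA_anti (a b : Fin 4) : sA b a = -sA a b := by
  unfold sA
  rcases lt_trichotomy a b with h | h | h
  · simp [h, h.not_gt]
  · simp [h]
  · simp [h, h.not_gt]

theorem Dm_anti {M : ℕ} (A : Gauge M) : (Dm A)ᵀ = -Dm A := by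
  ext s t
  simp only [Dm, transpose_apply, of_apply, Matrix.neg_apply]
  by_cases h : s.1 = t.1
  · rw [if_pos h, if_pos h.symm, sA_anti]
    ring
  · rw [if_neg h, if_neg (Ne.symm h)]
    ring

theorem sum_sA (a : Fin 4) : ∑ b, |sA a b| = 3 := by
  fin_cases a <;> simp [sA, Fin.sum_univ_four] <;> norm_num

theorem abs_sign {α : Type} {A : α → ℝ} (hA : IsSign A) (e : α) : |A e| = 1 := by
  rcases hA e with h | h <;> simp [h]

theorem tc_nonneg : 0 ≤ tc := by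
  unfold tc
  have : (1 : ℝ) ≤ √2 := Real.one_le_sqrt.2 (by norm_num)
  linarith

theorem tc_le : tc ≤ 1 / 2 := by
  unfold tc
  have : √2 ≤ (3 / 2 : ℝ) := Real.sqrt_le_iff.2 ⟨by norm_num, by norm_num⟩
  linarith

theorem hop_le {M : ℕ} {A : Gauge M} (hA : IsSign A) (s t : Tor M × Fin 4) :
    |hop A s t| ≤ if t = (if s.2 = 0 then (s.1 + uv M 0, 2) else (s.1 + uv M 1, 3)) then 1
      else 0 := by
  obtain ⟨x, a⟩ := s
  obtain ⟨y, b⟩ := t
  unfold hop
  simp only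
  by_cases h0 : a = 0
  · subst h0
    by_cases h : b = 2 ∧ y = x + uv M 0
    · simp [h.1, h.2, abs_sign hA]
    · simp [h]
      split_ifs <;> norm_num
  · by_cases h : a = 1 ∧ b = 3 ∧ y = x + uv M 1
    · simp [h.1, h.2.1, h.2.2, abs_sign hA]
    · simp [h0, h]
      split_ifs <;> norm_num

theorem hop_le' {M : ℕ} {A : Gauge M} (hA : IsSign A) (s t : Tor M × Fin 4) :
    |hop A t s| ≤ if t = (if s.2 = 2 then (s.1 - uv M 0, 0) else (s.1 - uv M 1, 1)) then 1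
      else 0 := by
  obtain ⟨x, a⟩ := s
  obtain ⟨y, b⟩ := t
  unfold hop
  simp only
  by_cases h0 : a = 2
  · subst h0
    by_cases h : b = 0 ∧ x = y + uv M 0
    · simp [h.1, h.2, abs_sign hA]
    · simp [h]
      split_ifs <;> norm_num
  · by_cases h : b = 1 ∧ a = 3 ∧ x = y + uv M 1
    · simp [h.1, h.2.1, h.2.2, abs_sign hA]
    · simp [h0, h]
      split_ifs <;> norm_num

theorem natAbs_tri {M : ℕ} (a b : ZMod M) :
    (a + b).valMinAbs.natAbs ≤ a.valMinAbs.natAbs + b.valMinAbs.natAbs :=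
  (ZMod.natAbs_valMinAbs_add_le a b).trans (Int.natAbs_add_le _ _)

theorem tri {M : ℕ} (x y z : Tor M) : tdist x z ≤ tdist x y + tdist y z := by
  unfold tdist lft
  have e : x - z = (x - y) + (y - z) := by abel
  rw [e]
  have h1 := natAbs_tri (x - y).1 (y - z).1
  have h2 := natAbs_tri (x - y).2 (y - z).2
  simp only [Prod.fst_add, Prod.snd_add]
  omega

theorem td_self {M : ℕ} (x : Tor M) : tdist x x = 0 := by
  simp [tdist, lft]

theorem natAbs_one (M : ℕ) : (1 : ZMod M).valMinAbs.natAbs ≤ 1 := by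
  have := ZMod.natAbs_min_of_le_div_two M (1 : ZMod M).valMinAbs 1 (by simp)
  rcases Nat.eq_zero_or_pos M with rfl | hM
  · simp [ZMod.valMinAbs_def_zero]
  · have hM' : NeZero M := ⟨hM.ne'⟩
    exact this (ZMod.natAbs_valMinAbs_le _)

theorem td_uv {M : ℕ} (x : Tor M) (i : Fin 2) :
    tdist (x + uv M i) x ≤ 1 ∧ tdist x (x + uv M i) ≤ 1 := by
  have h := natAbs_one M
  have h' : (-1 : ZMod M).valMinAbs.natAbs ≤ 1 := by rwa [ZMod.natAbs_valMinAbs_neg]
  unfold tdist lft uv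
  constructor
  · rw [add_sub_cancel_left]
    split_ifs <;> simpa using h
  · rw [sub_add_cancel_left]
    split_ifs <;> simpa using h'

theorem Dm_near {M : ℕ} (A : Gauge M) {s t : Tor M × Fin 4} (h : Dm A s t ≠ 0) :
    tdist s.1 t.1 ≤ 1 := by
  by_contra hn
  apply h
  have h1 : s.1 ≠ t.1 := fun e => hn (by rw [e, td_self]; exact zero_le_one)
  have h2 : ∀ i, t.1 ≠ s.1 + uv M i := fun i e => hn (by rw [e]; exact (td_uv _ i).2)
  have h3 : ∀ i, s.1 ≠ t.1 + uv M i := fun i e => hn (by rw [e]; exact (td_uv _ i).1)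
  simp [Dm, hop, h1, h2, h3]

theorem odd_expand {D : Matrix S S ℝ} (hD : Dᵀ = -D) (p : ℝ[X]) {N : ℕ} (hp : p.natDegree ≤ N) :
    D * aeval (Dᵀ * D) p = ∑ i ∈ range (N + 1), (p.coeff i * (-1) ^ i) • D ^ (2 * i + 1) := by
  rw [aeval_eq_sum_range' (Nat.lt_succ_of_le hp), mul_sum]
  refine sum_congr rfl fun i _ => ?_
  rw [hD, neg_mul, neg_pow, ← sq, ← pow_mul, mul_smul_comm, mul_smul, pow_succ']
  congr 1
  rcases neg_one_pow_eq_or ℝ i with h | h
  · have h' : (-1 : Matrix S S ℝ) ^ i = 1 := by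
      have := congrArg (algebraMap ℝ (Matrix S S ℝ)) h
      simpa using this
    rw [h, h', one_smul, one_mul]
  · have h' : (-1 : Matrix S S ℝ) ^ i = -1 := by
      have := congrArg (algebraMap ℝ (Matrix S S ℝ)) h
      simpa using this
    rw [h, h', neg_one_smul, neg_one_mul, mul_neg]

theorem covP_expand {D : Matrix S S ℝ} (hD : Dᵀ = -D) {ℓ ℓ' : ℕ} (h : ℓ ≤ ℓ') :
    covP D ℓ ℓ' = ∑ i ∈ range (8 * (ℓ' / 32) + 1),
      ((qp (ℓ' / 32) - qp (ℓ / 32)).coeff i * (-1) ^ i) • D ^ (2 * i + 1) := by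
  refine odd_expand hD _ ((natDegree_sub_le _ _).trans (max_le (natDegree_qp _) ?_))
  exact (natDegree_qp _).trans (Nat.mul_le_mul_left 8 (Nat.div_le_div_right h))

theorem pow_supp {D : Matrix S S ℝ} (Ω : ℕ → Set S)
    (hΩ : ∀ n, ∀ s ∈ Ω n, ∀ t, D s t ≠ 0 → t ∈ Ω (n + 1)) {s : S} (hs : s ∈ Ω 0) (n : ℕ) :
    ∀ t, (D ^ n) s t ≠ 0 → t ∈ Ω n := by
  induction n with
  | zero =>
    intro t ht
    rw [pow_zero, one_apply] at ht
    have : s = t := by
      by_contra hn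
      exact ht (if_neg hn)
    rwa [← this]
  | succ n ih =>
    intro t ht
    rw [pow_succ, mul_apply] at ht
    obtain ⟨u, -, hu⟩ := exists_ne_zero_of_sum_ne_zero ht
    exact hΩ n u (ih u (left_ne_zero_of_mul hu)) t (right_ne_zero_of_mul hu)

theorem pow_local {S' : Type} [Fintype S'] [DecidableEq S'] {D : Matrix S S ℝ}
    {D' : Matrix S' S' ℝ} (φ : S → S') (σ : S → ℝ)
    (hσ : IsSign σ) (Ω : ℕ → Set S) (hm : ∀ n, Ω n ⊆ Ω (n + 1))
    (hΩ : ∀ n, ∀ s ∈ Ω n, ∀ t, D s t ≠ 0 → t ∈ Ω (n + 1)) {N : ℕ}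
    (hinj : Set.InjOn φ (Ω (N + 1)))
    (hφ : ∀ s ∈ Ω (N + 1), ∀ t ∈ Ω (N + 1), D' (φ s) (φ t) = σ s * σ t * D s t)
    (hon : ∀ s ∈ Ω N, ∀ t', D' (φ s) t' ≠ 0 → ∃ t ∈ Ω (N + 1), φ t = t')
    {s : S} (hs : s ∈ Ω 0) (n : ℕ) (hn : n ≤ N + 1) :
    (∀ t ∈ Ω (N + 1), (D' ^ n) (φ s) (φ t) = σ s * σ t * (D ^ n) s t) ∧
      ∀ t', (D' ^ n) (φ s) t' ≠ 0 → ∃ t ∈ Ω n, φ t = t' := by
  classical
  have mono : Monotone Ω := monotone_nat_of_le_succ hm
  have hσ2 : ∀ u, σ u * σ u = 1 := fun u => by rcases hσ u with h | h <;> simp [h]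
  induction n with
  | zero =>
    have hs' : s ∈ Ω (N + 1) := mono (Nat.zero_le _) hs
    refine ⟨fun t ht => ?_, fun t' ht' => ⟨s, hs, ?_⟩⟩
    · simp only [pow_zero, one_apply]
      by_cases h : s = t
      · subst h
        simp [hσ2]
      · rw [if_neg h, if_neg fun e => h (hinj hs' ht e), mul_zero]
    · rw [pow_zero, one_apply] at ht'
      by_contra hne
      exact ht' (if_neg hne)
  | succ n ih =>
    obtain ⟨ih1, ih2⟩ := ih (by omega)
    have hsub : Ω n ⊆ Ω (N + 1) := mono (by omega)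
    refine ⟨fun t ht => ?_, fun t' ht' => ?_⟩
    · rw [pow_succ, pow_succ, mul_apply, mul_apply, mul_sum]
      rw [← sum_subset (subset_univ ((univ.filter fun u => u ∈ Ω n).image φ)),
        ← sum_subset (subset_univ (univ.filter fun u => u ∈ Ω n)), sum_image]
      · refine sum_congr rfl fun u hu => ?_
        have hu' : u ∈ Ω (N + 1) := hsub (mem_filter.1 hu).2
        rw [ih1 u hu', hφ u hu' t ht]
        linear_combination (σ s * σ t * (D ^ n) s u * D u t) * hσ2 u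
      · intro u hu w hw e
        simp only [coe_filter, mem_univ, true_and, Set.mem_ofPred_eq] at hu hw
        exact hinj (hsub hu) (hsub hw) e
      · intro u _ hu
        have : (D ^ n) s u = 0 := by
          by_contra hne
          exact hu (mem_filter.2 ⟨mem_univ _, pow_supp Ω hΩ hs n u hne⟩)
        rw [this, zero_mul, mul_zero]
      · intro u' _ hu'
        have : (D' ^ n) (φ s) u' = 0 := by
          by_contra hne
          obtain ⟨u, hu, e⟩ := ih2 u' hne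
          exact hu' (mem_image.2 ⟨u, mem_filter.2 ⟨mem_univ _, hu⟩, e⟩)
        rw [this, zero_mul]
    · rw [pow_succ, mul_apply] at ht'
      obtain ⟨u', -, hu'⟩ := exists_ne_zero_of_sum_ne_zero ht'
      obtain ⟨u, hu, rfl⟩ := ih2 u' (left_ne_zero_of_mul hu')
      have h1 := right_ne_zero_of_mul hu'
      obtain ⟨t, ht, rfl⟩ := hon u (mono (by omega) hu) t' h1
      refine ⟨t, hΩ n u hu t fun h0 => h1 ?_, rfl⟩
      rw [hφ u (hsub hu) t ht, h0, mul_zero]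

end C

theorem isD_Dm {M : ℕ} [NeZero M] {A : Gauge M} (hA : IsSign A) : IsD (Dm A) := by
  refine C.schur (C.Dm_anti A) fun s => ?_
  have h1 : ∑ t : Tor M × Fin 4, |if s.1 = t.1 then sA s.2 t.2 else 0| = 3 := by
    rw [Fintype.sum_prod_type, sum_eq_single s.1]
    · simpa using C.sum_sA s.2
    · intro y _ hy
      simp [Ne.symm hy]
    · simp
  have h2 : ∑ t, |hop A s t| ≤ 1 := (sum_le_sum fun t _ => C.hop_le hA s t).trans (by simp)
  have h3 : ∑ t, |hop A t s| ≤ 1 := (sum_le_sum fun t _ => C.hop_le' hA s t).trans (by simp)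
  have h4 : ∀ t, |Dm A s t| ≤ |if s.1 = t.1 then sA s.2 t.2 else 0| +
      (1 / 2) * (|hop A s t| + |hop A t s|) := by
    intro t
    refine (abs_add_le _ _).trans (add_le_add le_rfl ?_)
    rw [abs_mul, abs_of_nonneg C.tc_nonneg]
    exact mul_le_mul C.tc_le (abs_sub _ _) (abs_nonneg _) (by norm_num)
  refine (sum_le_sum fun t _ => h4 t).trans ?_
  rw [sum_add_distrib, ← mul_sum, sum_add_distrib, h1]
  linarith

/-- Finite range. -/
theorem covP_range {M : ℕ} [NeZero M] (A : Gauge M) {ℓ ℓ' : ℕ} (h : ℓ ≤ ℓ') (h1 : 2 ≤ ℓ')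
    {s s' : Tor M × Fin 4} (hs : ℓ' < tdist s.1 s'.1) : covP (Dm A) ℓ ℓ' s s' = 0 := by
  rw [C.covP_expand (C.Dm_anti A) h, Matrix.sum_apply]
  refine sum_eq_zero fun i hi => ?_
  have : (Dm A ^ (2 * i + 1)) s s' = 0 := by
    by_contra hne
    have := C.pow_supp (D := Dm A) (fun n => {t | tdist s.1 t.1 ≤ n}) (fun n u hu t ht => by
      have h2 := C.Dm_near A ht
      have h3 := C.tri s.1 u.1 t.1
      simp only [Set.mem_ofPred_eq] at hu ⊢
      omega) (s := s) (by simp [C.td_self]) _ s' hne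
    simp only [Set.mem_ofPred_eq] at this
    have := mem_range.1 hi
    omega
  rw [Matrix.smul_apply, this, smul_zero]

/-- Locality: a polynomial in `D` only depends on the matrix near the points. -/
theorem covP_local {S' : Type} [Fintype S'] [DecidableEq S'] {D : Matrix S S ℝ}
    {D' : Matrix S' S' ℝ} (hD : Dᵀ = -D) (hD' : D'ᵀ = -D') (φ : S → S') (σ : S → ℝ)
    (hσ : IsSign σ) (Ω : ℕ → Set S) (hm : ∀ n, Ω n ⊆ Ω (n + 1))
    (hΩ : ∀ n, ∀ s ∈ Ω n, ∀ t, D s t ≠ 0 → t ∈ Ω (n + 1)) {ℓ ℓ' : ℕ} (h : ℓ ≤ ℓ')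
    (hinj : Set.InjOn φ (Ω (ℓ' + 2)))
    (hφ : ∀ s ∈ Ω (ℓ' + 2), ∀ t ∈ Ω (ℓ' + 2), D' (φ s) (φ t) = σ s * σ t * D s t)
    (hon : ∀ s ∈ Ω (ℓ' + 1), ∀ t', D' (φ s) t' ≠ 0 → ∃ t ∈ Ω (ℓ' + 2), φ t = t')
    {s t : S} (hs : s ∈ Ω 0) (ht : t ∈ Ω 0) :
    covP D' ℓ ℓ' (φ s) (φ t) = σ s * σ t * covP D ℓ ℓ' s t := by
  have mono : Monotone Ω := monotone_nat_of_le_succ hm
  rw [C.covP_expand hD h, C.covP_expand hD' h, Matrix.sum_apply, Matrix.sum_apply, mul_sum]
  refine sum_congr rfl fun i hi => ?_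
  have hi' := mem_range.1 hi
  have := (C.pow_local φ σ hσ Ω hm hΩ (N := ℓ' + 1) hinj hφ hon hs (2 * i + 1) (by omega)).1 t
    (mono (Nat.zero_le _) ht)
  rw [Matrix.smul_apply, Matrix.smul_apply, this, smul_eq_mul, smul_eq_mul]
  ring

end Vale.Agent.P144Z
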