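import Vale.Agent.P144Z.C.Gram
import Vale.Agent.P144Z.C.Loc

/-!
Block C: the spectral part of the finite-range decomposition.
-/
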