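import Vale.Agent.P144Z.C.Poly

/-!
Functions of `DᵀD` and the algebra of the covariances.
-/

namespace Vale.Agent.P144Z

open Finset Matrix Polynomial

variable {S : Type} [Fintype S] [DecidableEq S]

namespace C

/-- A function of `DᵀD`. -/
noncomputable def fc (D : Matrix S S ℝ) (f : ℝ → ℝ) : Matrix S S ℝ := cfc f (Dᵀ * D)

theorem herm (D : Matrix S S ℝ) : (Dᵀ * D).IsHermitian := by
  have := Matrix.isHermitian_conjTranspose_mul_self D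
  rwa [conjTranspose_eq_transpose_of_trivial] at this

theorem sa (D : Matrix S S ℝ) : IsSelfAdjoint (Dᵀ * D) := herm D

theorem con (D : Matrix S S ℝ) (f : ℝ → ℝ) : ContinuousOn f (spectrum ℝ (Dᵀ * D)) :=
  (Matrix.finite_real_spectrum).continuousOn f

theorem fc_mul (D : Matrix S S ℝ) (f g : ℝ → ℝ) :
    fc D (fun s => f s * g s) = fc D f * fc D g :=
  cfc_mul f g _ (con D f) (con D g)

theorem fc_add (D : Matrix S S ℝ) (f g : ℝ → ℝ) :
    fc D (fun s => f s + g s) = fc D f + fc D g :=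
  cfc_add _ f g (con D f) (con D g)

theorem fc_sub (D : Matrix S S ℝ) (f g : ℝ → ℝ) :
    fc D (fun s => f s - g s) = fc D f - fc D g :=
  cfc_sub f g _ (con D f) (con D g)

theorem fc_smul (D : Matrix S S ℝ) (c : ℝ) (f : ℝ → ℝ) :
    fc D (fun s => c * f s) = c • fc D f :=
  cfc_const_mul c f _ (con D f)

theorem fc_one (D : Matrix S S ℝ) : fc D (fun _ => 1) = 1 := cfc_const_one ℝ _ (sa D)

theorem fc_zero (D : Matrix S S ℝ) : fc D (fun _ => 0) = 0 := cfc_const_zero ℝ _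

theorem fc_id (D : Matrix S S ℝ) : fc D (fun s => s) = Dᵀ * D := cfc_id' ℝ _ (sa D)

theorem fc_pow (D : Matrix S S ℝ) (k : ℕ) : fc D (fun s => s ^ k) = (Dᵀ * D) ^ k :=
  cfc_pow_id _ k (sa D)

theorem fc_sum (D : Matrix S S ℝ) {ι : Type} (T : Finset ι) (f : ι → ℝ → ℝ) :
    fc D (fun s => ∑ i ∈ T, f i s) = ∑ i ∈ T, fc D (f i) := by
  classical
  induction T using Finset.induction_on with
  | empty => simpa using fc_zero D
  | insert a T ha ih =>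
    simp only [sum_insert ha]
    rw [fc_add, ih]

theorem fc_poly (D : Matrix S S ℝ) (p : ℝ[X]) : aeval (Dᵀ * D) p = fc D p.eval :=
  (cfc_polynomial p _ (sa D)).symm

theorem fc_congr (D : Matrix S S ℝ) {f g : ℝ → ℝ} (h : ∀ s ∈ spectrum ℝ (Dᵀ * D), f s = g s) :
    fc D f = fc D g := cfc_congr h

theorem fc_tr (D : Matrix S S ℝ) (f : ℝ → ℝ) : (fc D f)ᵀ = fc D f := by
  have h : IsSelfAdjoint (fc D f) := cfc_predicate f _
  have h2 : (fc D f)ᴴ = fc D f := h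
  rwa [conjTranspose_eq_transpose_of_trivial] at h2

theorem fc_comm {D : Matrix S S ℝ} (hD : Dᵀ = -D) (f : ℝ → ℝ) : fc D f * D = D * fc D f := by
  have h : Commute (Dᵀ * D) D := by
    unfold Commute SemiconjBy
    rw [hD]
    simp [mul_assoc]
  exact h.cfc_real f

theorem mul_self_eq {D : Matrix S S ℝ} (hD : Dᵀ = -D) : D * D = -fc D fun s => s := by
  rw [fc_id, hD]
  simp

theorem dot_mulVec (X Y : Matrix S S ℝ) (v w : S → ℝ) :
    (X *ᵥ v) ⬝ᵥ (Y *ᵥ w) = v ⬝ᵥ (Xᵀ * Y) *ᵥ w := by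
  rw [← mulVec_mulVec, dotProduct_mulVec v, vecMul_transpose]

theorem dot_nonneg (v : S → ℝ) : 0 ≤ v ⬝ᵥ v := sum_nonneg fun i _ => mul_self_nonneg (v i)

theorem fc_nonneg (D : Matrix S S ℝ) {f : ℝ → ℝ} (h : ∀ s ∈ spectrum ℝ (Dᵀ * D), 0 ≤ f s)
    (v : S → ℝ) : 0 ≤ v ⬝ᵥ fc D f *ᵥ v := by
  have e : fc D f = (fc D fun s => √(f s))ᵀ * fc D fun s => √(f s) := by
    rw [fc_tr, ← fc_mul]
    exact fc_congr D fun s hs => (Real.mul_self_sqrt (h s hs)).symm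
  rw [e, ← dot_mulVec]
  exact dot_nonneg _

theorem fc_le (D : Matrix S S ℝ) {f : ℝ → ℝ} {c : ℝ} (h : ∀ s ∈ spectrum ℝ (Dᵀ * D), f s ≤ c)
    (v : S → ℝ) : v ⬝ᵥ fc D f *ᵥ v ≤ c * (v ⬝ᵥ v) := by
  have h1 := fc_nonneg D (f := fun s => c * 1 - f s) (fun s hs => by linarith [h s hs]) v
  rw [fc_sub, fc_smul, fc_one, sub_mulVec, dotProduct_sub, smul_mulVec, one_mulVec,
    dotProduct_smul, smul_eq_mul] at h1
  linarith

theorem exists_eig (D : Matrix S S ℝ) {s : ℝ} (hs : s ∈ spectrum ℝ (Dᵀ * D)) :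
    ∃ v : S → ℝ, 0 < v ⬝ᵥ v ∧ (Dᵀ * D) *ᵥ v = s • v := by
  rw [(herm D).spectrum_real_eq_range_eigenvalues] at hs
  obtain ⟨i, rfl⟩ := hs
  refine ⟨(herm D).eigenvectorBasis i, ?_, (herm D).mulVec_eigenvectorBasis i⟩
  refine (dot_nonneg _).lt_of_ne fun h => ?_
  have h0 := dotProduct_self_eq_zero.1 h.symm
  have h1 := (herm D).eigenvectorBasis.orthonormal.ne_zero i
  apply h1
  ext j
  exact congrFun h0 j

theorem spec_mem {D : Matrix S S ℝ} (hD : IsD D) {s : ℝ} (hs : s ∈ spectrum ℝ (Dᵀ * D)) :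
    s ∈ Set.Icc (0 : ℝ) 16 := by
  obtain ⟨v, hv, he⟩ := exists_eig D hs
  have h1 := hD.le v
  have h0 := dot_nonneg (D *ᵥ v)
  rw [dot_mulVec, he, dotProduct_smul, smul_eq_mul] at h1 h0
  exact ⟨nonneg_of_mul_nonneg_left h0 hv, le_of_mul_le_mul_right h1 hv⟩

theorem pow_tr_mul {D : Matrix S S ℝ} (hD : Dᵀ = -D) (k : ℕ) :
    (D ^ k)ᵀ * D ^ k = fc D fun s => s ^ k := by
  have h : Commute Dᵀ D := by
    rw [hD]
    exact (Commute.refl D).neg_left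
  rw [fc_pow, transpose_pow, h.mul_pow]

theorem pow_fc_sq {D : Matrix S S ℝ} (hD : Dᵀ = -D) (k : ℕ) (f : ℝ → ℝ) (v : S → ℝ) :
    ((D ^ k * fc D f) *ᵥ v) ⬝ᵥ ((D ^ k * fc D f) *ᵥ v) =
      v ⬝ᵥ (fc D fun s => s ^ k * f s ^ 2) *ᵥ v := by
  rw [dot_mulVec, transpose_mul, fc_tr, mul_assoc, ← mul_assoc (D ^ k)ᵀ, pow_tr_mul hD,
    ← fc_mul, ← fc_mul]
  congr 2
  exact fc_congr D fun s _ => by ring

/-- `D` kills the functions that vanish outside `0`. -/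
theorem mul_fc_congr (D : Matrix S S ℝ) {f g : ℝ → ℝ} (h : ∀ s, s ≠ 0 → f s = g s) :
    D * fc D f = D * fc D g := by
  rw [← sub_eq_zero, ← mul_sub, ← fc_sub]
  have e : (D * fc D fun s => f s - g s)ᵀ * (D * fc D fun s => f s - g s) = 0 := by
    rw [transpose_mul, fc_tr, mul_assoc, ← mul_assoc Dᵀ, ← fc_id, ← fc_mul, ← fc_mul,
      ← fc_zero D]
    refine fc_congr D fun s _ => ?_
    by_cases h0 : s = 0
    · simp [h0]
    · simp [h s h0]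
  rw [← conjTranspose_eq_transpose_of_trivial] at e
  exact conjTranspose_mul_self_eq_zero.1 e

theorem mul_fc_anti {D : Matrix S S ℝ} (hD : Dᵀ = -D) (f : ℝ → ℝ) :
    (D * fc D f)ᵀ = -(D * fc D f) := by
  rw [transpose_mul, fc_tr, hD, mul_neg, fc_comm hD]

theorem covP_eq (D : Matrix S S ℝ) (ℓ ℓ' : ℕ) :
    covP D ℓ ℓ' = D * fc D fun s => (qp (ℓ' / 32)).eval s - (qp (ℓ / 32)).eval s := by
  unfold covP
  rw [fc_poly]
  congr 1
  exact fc_congr D fun s _ => eval_sub _ _ _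

theorem covI_eq (D : Matrix S S ℝ) : covI D = D * fc D fun s => s⁻¹ := rfl

theorem covL_eq (D : Matrix S S ℝ) (ℓ : ℕ) :
    covL D ℓ = D * fc D fun s => s⁻¹ * (rp (ℓ / 32)).eval s := by
  unfold covL
  rw [fc_poly, covI_eq, mul_assoc, fc_mul]

end C

/-- A polynomial in `DᵀD` is bounded by its values. -/
theorem poly_le {D : Matrix S S ℝ} (hD : IsD D) (p : ℝ[X]) (k : ℕ) {c : ℝ}
    (hp : ∀ s ∈ Set.Icc (0 : ℝ) 16, s ^ k * p.eval s ^ 2 ≤ c) (v : S → ℝ) :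
    ((D ^ k * aeval (Dᵀ * D) p) *ᵥ v) ⬝ᵥ ((D ^ k * aeval (Dᵀ * D) p) *ᵥ v) ≤ c * (v ⬝ᵥ v) := by
  rw [C.fc_poly, C.pow_fc_sq hD.anti]
  exact C.fc_le D (fun s hs => hp s (C.spec_mem hD hs)) v

theorem covP_anti {D : Matrix S S ℝ} (hD : Dᵀ = -D) (ℓ ℓ' : ℕ) :
    (covP D ℓ ℓ')ᵀ = -covP D ℓ ℓ' := by
  rw [C.covP_eq]
  exact C.mul_fc_anti hD _

theorem covL_anti {D : Matrix S S ℝ} (hD : Dᵀ = -D) (ℓ : ℕ) : (covL D ℓ)ᵀ = -covL D ℓ := by
  rw [C.covL_eq]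
  exact C.mul_fc_anti hD _

theorem covI_anti {D : Matrix S S ℝ} (hD : Dᵀ = -D) : (covI D)ᵀ = -covI D := by
  rw [C.covI_eq]
  exact C.mul_fc_anti hD _

theorem covL_split {D : Matrix S S ℝ} (hD : Dᵀ = -D) (ℓ ℓ' : ℕ) :
    covL D ℓ = covL D ℓ' + covP D ℓ ℓ' := by
  have _ := hD
  rw [C.covL_eq, C.covL_eq, C.covP_eq, ← mul_add, ← C.fc_add]
  refine C.mul_fc_congr D fun s hs => ?_
  have h1 := C.qp_eval (ℓ / 32) s
  have h2 := C.qp_eval (ℓ' / 32) s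
  field_simp
  linarith

theorem covL_eight (D : Matrix S S ℝ) : covL D 8 = covI D := by
  unfold covL
  rw [show 8 / 32 = 0 from rfl, rp_zero, map_one, mul_one]

theorem covI_mul {D : Matrix S S ℝ} (hD : Dᵀ = -D) :
    D * covI D * D = -D ∧ D * covI D = covI D * D ∧ covI D * D * covI D = -covI D := by
  have h2 : D * covI D = covI D * D := by
    rw [C.covI_eq, mul_assoc D _ D, C.fc_comm hD]
  have h3 : D * covI D = -C.fc D fun s => s * s⁻¹ := by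
    rw [C.covI_eq, ← mul_assoc, C.mul_self_eq hD, C.fc_mul, neg_mul]
  refine ⟨?_, h2, ?_⟩
  · rw [h3, neg_mul, C.fc_comm hD, C.mul_fc_congr D (g := fun _ => 1)
      (fun s hs => mul_inv_cancel₀ hs), C.fc_one, mul_one]
  · rw [mul_assoc, h3, mul_neg, C.covI_eq, mul_assoc, ← C.fc_mul]
    congr 1
    exact C.mul_fc_congr D fun s hs => by rw [mul_inv_cancel₀ hs, mul_one]

theorem covP_neg (D : Matrix S S ℝ) (ℓ ℓ' : ℕ) : covP (-D) ℓ ℓ' = -covP D ℓ ℓ' := by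
  unfold covP
  rw [transpose_neg, neg_mul_neg, neg_mul]

end Vale.Agent.P144Z
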