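import Vale.Agent.P144Z.C.Alg

/-!
Gram bounds of the covariances.
-/

namespace Vale.Agent.P144Z

open Finset Matrix Polynomial

namespace C

variable {S : Type} [Fintype S] [DecidableEq S]

/-- The symbol of the squared Sobolev norm. -/
noncomputable def wt (ℓ : ℕ) (s : ℝ) : ℝ := ∑ k ∈ range 5, (ℓ : ℝ) ^ (2 * k) * s ^ k

theorem one_le_wt (ℓ : ℕ) {s : ℝ} (hs : 0 ≤ s) : 1 ≤ wt ℓ s := by
  unfold wt
  simp only [sum_range_succ, range_zero, sum_empty]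
  have : (0 : ℝ) ≤ (ℓ : ℝ) ^ (2 * 1) * s ^ 1 + (ℓ : ℝ) ^ (2 * 2) * s ^ 2 + (ℓ : ℝ) ^ (2 * 3) * s ^ 3
      + (ℓ : ℝ) ^ (2 * 4) * s ^ 4 := by positivity
  simp only [mul_zero, pow_zero, mul_one] at this ⊢
  linarith

theorem wt_le (ℓ : ℕ) {s T : ℝ} (hs : 0 ≤ s) (hT : 1 ≤ T) (h : (ℓ : ℝ) ^ 2 * s ≤ T) :
    wt ℓ s ≤ 5 * T ^ 4 := by
  unfold wt
  have : ∀ k ∈ range 5, (ℓ : ℝ) ^ (2 * k) * s ^ k ≤ T ^ 4 := by
    intro k hk
    rw [pow_mul, ← mul_pow]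
    calc _ ≤ T ^ k := pow_le_pow_left₀ (by positivity) h k
      _ ≤ T ^ 4 := pow_le_pow_right₀ hT (by have := mem_range.1 hk; omega)
  refine (sum_le_sum this).trans ?_
  simp

theorem sob_eq {D : Matrix S S ℝ} (hD : Dᵀ = -D) (ℓ : ℕ) (g : S → ℝ) :
    ∑ k ∈ range 5, (ℓ : ℝ) ^ (2 * k) * (((D ^ k) *ᵥ g) ⬝ᵥ ((D ^ k) *ᵥ g)) =
      g ⬝ᵥ fc D (wt ℓ) *ᵥ g := by
  have : fc D (wt ℓ) = ∑ k ∈ range 5, (ℓ : ℝ) ^ (2 * k) • ((D ^ k)ᵀ * D ^ k) := by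
    unfold wt
    rw [fc_sum]
    refine sum_congr rfl fun k _ => ?_
    rw [fc_smul, pow_tr_mul hD]
  rw [this, sum_mulVec, dotProduct_sum]
  refine sum_congr rfl fun k _ => ?_
  rw [smul_mulVec, dotProduct_smul, smul_eq_mul, dot_mulVec]

theorem dot_cs (v w : S → ℝ) : (v ⬝ᵥ w) ^ 2 ≤ (v ⬝ᵥ v) * (w ⬝ᵥ w) := by
  have := sum_mul_sq_le_sq_mul_sq univ v w
  simpa only [dotProduct, sq] using this

/-- The Gram bound of a function of `D`. -/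
theorem gram_of {D : Matrix S S ℝ} (hD : IsD D) (h : ℝ → ℝ) {ℓ : ℕ} (hℓ : 0 < ℓ) {c : ℝ}
    (hh : ∀ s ∈ spectrum ℝ (Dᵀ * D), s * (h s * wt ℓ s) ^ 2 ≤ (c ^ 2 * ℓ) ^ 2) :
    GramLe D (D * fc D h) ℓ c := by
  have hℓ' : (0 : ℝ) < ℓ := by exact_mod_cast hℓ
  have hw : ∀ s ∈ spectrum ℝ (Dᵀ * D), 0 < wt ℓ s := fun s hs =>
    one_pos.trans_le (one_le_wt ℓ (spec_mem hD hs).1)
  set κ := c ^ 2 * ℓ with hκ
  have hκ0 : 0 ≤ κ := by positivity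
  set I := fc D fun s => (wt ℓ s)⁻¹ with hI
  set U := fc D fun s => (√(wt ℓ s))⁻¹ with hU
  have hUU : Uᵀ * U = I := by
    rw [hU, fc_tr, ← fc_mul]
    refine fc_congr D fun s hs => ?_
    rw [← mul_inv, Real.mul_self_sqrt (hw s hs).le]
  have hI0 : ∀ v, 0 ≤ v ⬝ᵥ I *ᵥ v := fun v =>
    fc_nonneg D (fun s hs => (inv_pos.2 (hw s hs)).le) v
  refine ⟨κ • I, ?_, fun δ δ' => ?_, fun δ c' hδ => ?_⟩
  · refine PosSemidef.smul ?_ hκ0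
    rw [← hUU, ← conjTranspose_eq_transpose_of_trivial]
    exact posSemidef_conjTranspose_mul_self U
  · have e : D * fc D h = Uᵀ * (D ^ 1 * fc D (fun s => h s * wt ℓ s) * U) := by
      rw [hU, fc_tr, pow_one, ← mul_assoc, ← mul_assoc, fc_comm hD.anti, mul_assoc, mul_assoc,
        ← fc_mul, ← fc_mul]
      congr 1
      refine fc_congr D fun s hs => ?_
      have h1 := Real.mul_self_sqrt (hw s hs).le
      have h2 : √(wt ℓ s) ≠ 0 := (Real.sqrt_pos.2 (hw s hs)).ne'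
      field_simp
      rw [sq, h1]
    rw [e, ← dot_mulVec, ← mulVec_mulVec]
    refine (dot_cs _ _).trans ?_
    have h1 := fc_le D (f := fun s => s ^ 1 * (h s * wt ℓ s) ^ 2) (c := κ ^ 2)
      (fun s hs => by simpa using hh s hs) (U *ᵥ δ')
    rw [← pow_fc_sq hD.anti] at h1
    refine (mul_le_mul_of_nonneg_left h1 (dot_nonneg _)).trans ?_
    rw [dot_mulVec, dot_mulVec, hUU, smul_mulVec, smul_mulVec, dotProduct_smul, dotProduct_smul,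
      smul_eq_mul, smul_eq_mul]
    exact le_of_eq (by ring)
  · have h1 := hδ (I *ᵥ δ)
    rw [sob_eq hD.anti] at h1
    have e : (I *ᵥ δ) ⬝ᵥ fc D (wt ℓ) *ᵥ I *ᵥ δ = δ ⬝ᵥ I *ᵥ δ := by
      rw [mulVec_mulVec, dot_mulVec, hI, fc_tr, ← fc_mul, ← fc_mul]
      congr 2
      refine fc_congr D fun s hs => ?_
      have := (hw s hs).ne'
      field_simp
    rw [e] at h1
    rw [smul_mulVec, dotProduct_smul, smul_eq_mul]
    have h0 := hI0 δ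
    set q := δ ⬝ᵥ I *ᵥ δ
    have h2 : q * ℓ ≤ c' ^ 2 := by
      rcases h0.eq_or_lt with h | h
      · rw [← h, zero_mul]
        positivity
      · refine le_of_mul_le_mul_right ?_ h
        nlinarith
    rw [hκ, mul_pow]
    nlinarith [sq_nonneg c]

theorem rp_wt {ℓ m : ℕ} (h : ℓ / 32 ≤ m) {s : ℝ} (hs : s ∈ Set.Icc (0 : ℝ) 16) :
    |(rp m).eval s| * wt ℓ s ≤ 2 ^ 60 := by
  have h1 := rp_abs m hs
  have h0 := abs_nonneg ((rp m).eval s)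
  by_cases hT : (ℓ : ℝ) ^ 2 * s ≤ 2 ^ 14
  · have h2 := wt_le ℓ hs.1 (by norm_num) hT
    have h3 := one_le_wt ℓ hs.1
    calc |(rp m).eval s| * wt ℓ s ≤ 1 * (5 * (2 ^ 14) ^ 4) := by gcongr
      _ ≤ 2 ^ 60 := by norm_num
  · push Not at hT
    have hℓ : 32 ≤ ℓ := by
      by_contra hn
      push Not at hn
      have : (ℓ : ℝ) ≤ 32 := by exact_mod_cast hn.le
      have h2 : (ℓ : ℝ) ^ 2 * s ≤ 32 ^ 2 * 16 := by
        have := hs.1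
        have := hs.2
        gcongr
      norm_num at h2 hT
      linarith
    have hm : (ℓ : ℝ) ≤ 64 * m := by
      have : ℓ ≤ 64 * m := by omega
      exact_mod_cast this
    have h2 := wt_le ℓ hs.1 (T := (ℓ : ℝ) ^ 2 * s) (by linarith) le_rfl
    have h3 : (ℓ : ℝ) ^ 2 * s ≤ 2 ^ 12 * ((m : ℝ) ^ 2 * s) := by
      have := hs.1
      calc _ ≤ (64 * m) ^ 2 * s := by gcongr
        _ = _ := by ring
    have h4 := rp_decay m hs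
    have h5 : 0 ≤ (ℓ : ℝ) ^ 2 * s := by linarith
    calc _ ≤ |(rp m).eval s| * (5 * (2 ^ 12 * ((m : ℝ) ^ 2 * s)) ^ 4) := by
          refine mul_le_mul_of_nonneg_left (h2.trans ?_) h0
          gcongr
      _ = 5 * 2 ^ 48 * (|(rp m).eval s| * ((m : ℝ) ^ 2 * s) ^ 4) := by ring
      _ ≤ 5 * 2 ^ 48 * 256 := by gcongr
      _ ≤ 2 ^ 60 := by norm_num

theorem covP_sym {ℓ ℓ' : ℕ} (h8 : 8 ≤ ℓ) (h : ℓ ≤ ℓ') {s : ℝ} (hs : s ∈ Set.Icc (0 : ℝ) 16) :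
    s * (((qp (ℓ' / 32)).eval s - (qp (ℓ / 32)).eval s) * wt ℓ s) ^ 2 ≤ (2 ^ 61 * ℓ') ^ 2 := by
  have hℓ : (ℓ : ℝ) ≤ ℓ' := by exact_mod_cast h
  have h8' : (8 : ℝ) ≤ ℓ := by exact_mod_cast h8
  have hs0 := hs.1
  have hw := one_le_wt ℓ hs0
  by_cases hT : (ℓ' : ℝ) ^ 2 * s ≤ 1
  · have h1 : wt ℓ s ≤ 5 * 1 ^ 4 := wt_le ℓ hs0 le_rfl (le_trans (by gcongr) hT)
    have hm : ∀ n : ℕ, n ≤ ℓ' → |(qp (n / 32)).eval s| ≤ (ℓ' : ℝ) ^ 2 := by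
      intro n hn
      refine (qp_abs _ hs).trans ?_
      have : ((n / 32 : ℕ) : ℝ) ≤ ℓ' := by
        have : n / 32 ≤ ℓ' := by omega
        exact_mod_cast this
      gcongr
    have h2 : |((qp (ℓ' / 32)).eval s - (qp (ℓ / 32)).eval s) * wt ℓ s| ≤
        (ℓ' ^ 2 + ℓ' ^ 2) * (5 * 1 ^ 4) := by
      rw [abs_mul, abs_of_nonneg (by linarith : 0 ≤ wt ℓ s)]
      refine mul_le_mul ((abs_sub _ _).trans (add_le_add (hm _ le_rfl) (hm _ h))) h1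
        (by linarith) (by positivity)
    rw [← sq_abs (_ * wt ℓ s)]
    calc _ ≤ s * ((ℓ' ^ 2 + ℓ' ^ 2) * (5 * 1 ^ 4)) ^ 2 := by gcongr
      _ = 100 * (ℓ' ^ 2 * s) * ℓ' ^ 2 := by ring
      _ ≤ 100 * 1 * ℓ' ^ 2 := by gcongr
      _ ≤ (2 ^ 61) ^ 2 * ℓ' ^ 2 := by gcongr; norm_num
      _ = _ := by ring
  · push Not at hT
    have hsp : 0 < s := by
      rcases hs0.eq_or_lt with h0 | h0
      · rw [← h0] at hT
        norm_num at hT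
      · exact h0
    have e : s * ((qp (ℓ' / 32)).eval s - (qp (ℓ / 32)).eval s) =
        (rp (ℓ / 32)).eval s - (rp (ℓ' / 32)).eval s := by
      rw [mul_sub, qp_eval, qp_eval]
      ring
    have h1 := rp_wt (ℓ := ℓ) (m := ℓ / 32) le_rfl hs
    have h2 := rp_wt (ℓ := ℓ) (m := ℓ' / 32) (Nat.div_le_div_right h) hs
    have h3 : |s * (((qp (ℓ' / 32)).eval s - (qp (ℓ / 32)).eval s) * wt ℓ s)| ≤ 2 ^ 61 := by
      rw [← mul_assoc, e, abs_mul, abs_of_nonneg (by linarith : 0 ≤ wt ℓ s)]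
      have := abs_sub ((rp (ℓ / 32)).eval s) ((rp (ℓ' / 32)).eval s)
      nlinarith
    have h4 : (s * (((qp (ℓ' / 32)).eval s - (qp (ℓ / 32)).eval s) * wt ℓ s)) ^ 2 ≤
        (2 ^ 61) ^ 2 := by
      rw [← sq_abs]
      gcongr
    refine le_of_mul_le_mul_left ?_ hsp
    calc _ = (s * (((qp (ℓ' / 32)).eval s - (qp (ℓ / 32)).eval s) * wt ℓ s)) ^ 2 := by ring
      _ ≤ (2 ^ 61) ^ 2 * 1 := by linarith
      _ ≤ (2 ^ 61) ^ 2 * (ℓ' ^ 2 * s) := by gcongr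
      _ = _ := by ring

theorem sq_ratio {K x ℓ : ℝ} (hK : 1 ≤ K) (hℓ : 0 < ℓ) (h : ℓ ≤ x) :
    (K * x) ^ 2 ≤ ((K * x / ℓ) ^ 2 * ℓ) ^ 2 := by
  have hx : 0 < x := hℓ.trans_le h
  have h1 : 1 ≤ K * x / ℓ := by
    rw [le_div_iff₀ hℓ]
    nlinarith
  have h2 : K * x = K * x / ℓ * ℓ := by field_simp
  have h3 : K * x ≤ (K * x / ℓ) ^ 2 * ℓ := by
    nth_rewrite 1 [h2]
    gcongr
    nlinarith
  gcongr

end C

theorem gram_covP : ∃ C : ℝ, 1 ≤ C ∧ ∀ (S : Type) [Fintype S] [DecidableEq S] (D : Matrix S S ℝ),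
    IsD D → ∀ ℓ ℓ' : ℕ, 8 ≤ ℓ → ℓ ≤ ℓ' → GramLe D (covP D ℓ ℓ') ℓ (C * ℓ' / ℓ) := by
  refine ⟨2 ^ 61, by norm_num, fun S _ _ D hD ℓ ℓ' h8 h => ?_⟩
  rw [C.covP_eq]
  refine C.gram_of hD _ (by omega) fun s hs => (C.covP_sym h8 h (C.spec_mem hD hs)).trans ?_
  exact C.sq_ratio (by norm_num) (by exact_mod_cast (by omega : 0 < ℓ)) (by exact_mod_cast h)

theorem gram_covL : ∃ C : ℝ, 1 ≤ C ∧ ∀ (S : Type) [Fintype S] [DecidableEq S] (D : Matrix S S ℝ),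
    IsD D → ∀ (ℓ : ℕ) (γ : ℝ), 8 ≤ ℓ → ℓ ≤ γ →
    (∀ v, (D *ᵥ v) ⬝ᵥ (D *ᵥ v) ≤ γ ^ 2 * (((D * D) *ᵥ v) ⬝ᵥ ((D * D) *ᵥ v))) →
    GramLe D (covL D ℓ) ℓ (C * γ / ℓ) := by
  refine ⟨2 ^ 60, by norm_num, fun S _ _ D hD ℓ γ h8 h hγ => ?_⟩
  have hℓ : (0 : ℝ) < ℓ := by exact_mod_cast (by omega : 0 < ℓ)
  rw [C.covL_eq]
  refine C.gram_of hD _ (by omega) fun s hs => le_trans ?_ (C.sq_ratio (by norm_num) hℓ h)
  have hs' := C.spec_mem hD hs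
  rcases hs'.1.eq_or_lt with h0 | h0
  · rw [← h0, zero_mul]
    positivity
  have hg : 1 ≤ γ ^ 2 * s := by
    obtain ⟨v, hv, he⟩ := C.exists_eig D hs
    have h1 := hγ v
    have e : D * D = -(Dᵀ * D) := by
      rw [hD.anti]
      simp
    rw [C.dot_mulVec, e, neg_mulVec, he, dotProduct_smul, neg_dotProduct, dotProduct_neg, neg_neg,
      dotProduct_smul, smul_dotProduct] at h1
    simp only [smul_eq_mul] at h1
    refine le_of_mul_le_mul_right ?_ (mul_pos h0 hv)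
    linarith
  have h1 := C.rp_wt (ℓ := ℓ) (m := ℓ / 32) le_rfl hs'
  have hw := C.one_le_wt ℓ hs'.1
  have h2 : ((rp (ℓ / 32)).eval s * C.wt ℓ s) ^ 2 ≤ (2 ^ 60) ^ 2 := by
    rw [← sq_abs, abs_mul, abs_of_nonneg (by linarith : 0 ≤ C.wt ℓ s)]
    gcongr
  refine le_of_mul_le_mul_left ?_ h0
  calc _ = ((rp (ℓ / 32)).eval s * C.wt ℓ s) ^ 2 := by field_simp
    _ ≤ (2 ^ 60) ^ 2 * 1 := by linarith
    _ ≤ (2 ^ 60) ^ 2 * (γ ^ 2 * s) := by gcongr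
    _ = _ := by ring

end Vale.Agent.P144Z
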