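import Vale.Agent.P144Z.Lat

/-!
The cut-off polynomials.
-/

namespace Vale.Agent.P144Z

open Finset Polynomial

namespace C

/-- The normalized Dirichlet kernel as a polynomial in `s = 8 (1 - cos φ)`. -/
noncomputable def dk (m : ℕ) : ℝ[X] :=
  (Polynomial.C (1 / (2 * (m : ℝ) + 1)) * (1 + 2 * ∑ k ∈ Finset.Icc 1 m, Chebyshev.T ℝ k)).comp
    (1 - Polynomial.C (1 / 8) * X)

theorem rp_eq (m : ℕ) : rp m = dk m ^ 8 := rfl

theorem dk_eval (m : ℕ) (φ : ℝ) : (dk m).eval (8 * (1 - Real.cos φ)) =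
    (1 + 2 * ∑ k ∈ Finset.Icc 1 m, Real.cos (k * φ)) / (2 * m + 1) := by
  unfold dk
  rw [eval_comp]
  have e : eval (8 * (1 - Real.cos φ)) (1 - Polynomial.C (1 / 8 : ℝ) * X) = Real.cos φ := by
    simp only [eval_sub, eval_one, eval_mul, eval_C, eval_X]
    ring
  rw [e]
  simp only [eval_mul, eval_C, eval_add, eval_one, eval_ofNat, eval_finsetSum,
    Chebyshev.T_real_cos, Int.cast_natCast]
  ring

theorem natDegree_dk (m : ℕ) : (dk m).natDegree ≤ m := by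
  unfold dk
  refine natDegree_comp_le.trans ?_
  have h1 : (1 - Polynomial.C (1 / 8 : ℝ) * X).natDegree ≤ 1 := by compute_degree
  have h2 : (Polynomial.C (1 / (2 * (m : ℝ) + 1)) *
      (1 + 2 * ∑ k ∈ Finset.Icc 1 m, Chebyshev.T ℝ k)).natDegree ≤ m := by
    refine (natDegree_C_mul_le _ _).trans ?_
    refine (natDegree_add_le _ _).trans (max_le (by simp) ?_)
    have : (2 : ℝ[X]) = Polynomial.C 2 := rfl
    rw [this]
    refine (natDegree_C_mul_le _ _).trans ?_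
    refine natDegree_sum_le_of_forall_le _ _ fun k hk => ?_
    rw [Chebyshev.natDegree_T]
    simpa using (mem_Icc.1 hk).2
  calc _ ≤ m * 1 := Nat.mul_le_mul h2 h1
    _ = m := mul_one m

theorem dirichlet (m : ℕ) (θ : ℝ) :
    Real.sin θ * (1 + 2 * ∑ k ∈ Finset.Icc 1 m, Real.cos (k * (2 * θ))) =
      Real.sin ((2 * m + 1) * θ) := by
  induction m with
  | zero => simp
  | succ m ih =>
    rw [sum_Icc_succ_top (by omega)]
    push_cast
    have e1 : (2 * ((m : ℝ) + 1) + 1) * θ = (m + 1) * (2 * θ) + θ := by ring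
    have e2 : (2 * (m : ℝ) + 1) * θ = (m + 1) * (2 * θ) - θ := by ring
    rw [e2] at ih
    rw [e1, Real.sin_add]
    rw [Real.sin_sub] at ih
    linarith

theorem abs_sin_mul (k : ℕ) (θ : ℝ) : |Real.sin (k * θ)| ≤ k * |Real.sin θ| := by
  induction k with
  | zero => simp
  | succ k ih =>
    push_cast
    rw [add_mul, one_mul, Real.sin_add]
    refine (abs_add_le _ _).trans ?_
    rw [abs_mul, abs_mul]
    have h1 := Real.abs_cos_le_one θ
    have h2 := Real.abs_cos_le_one (k * θ)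
    have h3 := abs_nonneg (Real.sin (k * θ))
    have h4 := abs_nonneg (Real.sin θ)
    nlinarith

theorem one_sub_cos (k : ℕ) (θ : ℝ) :
    1 - Real.cos (k * (2 * θ)) ≤ (k : ℝ) ^ 2 * (1 - Real.cos (2 * θ)) := by
  have e : (k : ℝ) * (2 * θ) = 2 * (k * θ) := by ring
  rw [e, Real.cos_two_mul, Real.cos_two_mul, Real.cos_sq', Real.cos_sq']
  have h := abs_sin_mul k θ
  have h2 : Real.sin (k * θ) ^ 2 ≤ (k * |Real.sin θ|) ^ 2 := by
    rw [← sq_abs]
    exact pow_le_pow_left₀ (abs_nonneg _) h 2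
  rw [mul_pow, sq_abs] at h2
  nlinarith

theorem dk_spec (m : ℕ) {s : ℝ} (hs : s ∈ Set.Icc (0 : ℝ) 16) :
    |(dk m).eval s| ≤ 1 ∧ (dk m).eval s ^ 2 * ((m : ℝ) ^ 2 * s) ≤ 4 ∧
      1 - (dk m).eval s ≤ (m : ℝ) ^ 2 * s / 8 := by
  obtain ⟨θ, hθ⟩ : ∃ θ : ℝ, s = 8 * (1 - Real.cos (2 * θ)) := by
    refine ⟨Real.arccos (1 - s / 8) / 2, ?_⟩
    rw [mul_div_cancel₀ _ two_ne_zero, Real.cos_arccos (by linarith [hs.2]) (by linarith [hs.1])]
    ring
  have hm : (0 : ℝ) < 2 * m + 1 := by positivity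
  have hm0 : (0 : ℝ) ≤ m := Nat.cast_nonneg m
  rw [hθ, dk_eval]
  set T := ∑ k ∈ Finset.Icc 1 m, Real.cos (k * (2 * θ)) with hT
  have hcard : ∑ _k ∈ Finset.Icc 1 m, (1 : ℝ) = m := by simp
  refine ⟨?_, ?_, ?_⟩
  · rw [abs_div, abs_of_pos hm, div_le_one hm]
    have : |T| ≤ m := by
      refine (abs_sum_le_sum_abs _ _).trans ?_
      rw [← hcard]
      exact sum_le_sum fun k _ => Real.abs_cos_le_one _
    rw [abs_le] at this ⊢
    constructor <;> linarith [this.1, this.2]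
  · have h := dirichlet m θ
    rw [← hT] at h
    have h1 : Real.sin θ ^ 2 * (1 + 2 * T) ^ 2 ≤ 1 := by
      rw [← mul_pow, h]
      exact Real.sin_sq_le_one _
    rw [Real.cos_two_mul, Real.cos_sq', div_pow, div_mul_eq_mul_div, div_le_iff₀ (by positivity)]
    have h2 : (0 : ℝ) ≤ Real.sin θ ^ 2 * (1 + 2 * T) ^ 2 := by positivity
    nlinarith
  · have h1 : (m : ℝ) - T ≤ m * ((m : ℝ) ^ 2 * (1 - Real.cos (2 * θ))) := by
      rw [← hcard, hT, ← sum_sub_distrib, hcard]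
      have : (m : ℝ) * ((m : ℝ) ^ 2 * (1 - Real.cos (2 * θ))) =
          ∑ _k ∈ Finset.Icc 1 m, (m : ℝ) ^ 2 * (1 - Real.cos (2 * θ)) := by simp
      rw [this]
      refine sum_le_sum fun k hk => (one_sub_cos k θ).trans ?_
      have hk' : (k : ℝ) ≤ m := by exact_mod_cast (mem_Icc.1 hk).2
      have := Real.cos_le_one (2 * θ)
      gcongr
    have h2 : 0 ≤ (m : ℝ) ^ 2 * (1 - Real.cos (2 * θ)) :=
      mul_nonneg (by positivity) (by linarith [Real.cos_le_one (2 * θ)])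
    rw [one_sub_div hm.ne', div_le_iff₀ hm]
    nlinarith

theorem one_sub_pow_eight {y : ℝ} (hy : |y| ≤ 1) : 0 ≤ 1 - y ^ 8 ∧ 1 - y ^ 8 ≤ 8 * (1 - y) := by
  have h8 : y ^ 8 ≤ 1 := by
    have := pow_le_one₀ (abs_nonneg y) hy (n := 8)
    rw [← abs_pow] at this
    exact (le_abs_self _).trans this
  refine ⟨by linarith, ?_⟩
  have := one_add_mul_sub_le_pow (a := y) (by linarith [(abs_le.1 hy).1]) 8
  push_cast at this
  linarith

theorem rp_zero_eval (m : ℕ) : (rp m).eval 0 = 1 := by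
  have h := dk_eval m 0
  simp only [Real.cos_zero, sub_self, mul_zero, sum_const, Nat.card_Icc, add_tsub_cancel_right,
    nsmul_eq_mul, mul_one] at h
  rw [rp_eq, eval_pow, h, add_comm, div_self (by positivity), one_pow]

theorem X_mul_qp (m : ℕ) : X * qp m = 1 - rp m := by
  have h := X_mul_divX_add (1 - rp m)
  rw [coeff_zero_eq_eval_zero, eval_sub, eval_one, rp_zero_eval, sub_self, map_zero,
    add_zero] at h
  exact h

theorem natDegree_rp (m : ℕ) : (rp m).natDegree ≤ 8 * m :=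
  natDegree_pow_le.trans (Nat.mul_le_mul_left 8 (natDegree_dk m))

theorem natDegree_qp (m : ℕ) : (qp m).natDegree ≤ 8 * m := by
  refine natDegree_divX_le.trans ((natDegree_sub_le _ _).trans (max_le (by simp) ?_))
  exact natDegree_rp m

theorem rp_abs (m : ℕ) {s : ℝ} (hs : s ∈ Set.Icc (0 : ℝ) 16) : |(rp m).eval s| ≤ 1 := by
  rw [rp_eq, eval_pow, abs_pow]
  exact pow_le_one₀ (abs_nonneg _) (dk_spec m hs).1

theorem rp_decay (m : ℕ) {s : ℝ} (hs : s ∈ Set.Icc (0 : ℝ) 16) :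
    |(rp m).eval s| * ((m : ℝ) ^ 2 * s) ^ 4 ≤ 256 := by
  rw [rp_eq, eval_pow, abs_of_nonneg (by positivity)]
  have h := (dk_spec m hs).2.1
  have h0 : 0 ≤ (dk m).eval s ^ 2 * ((m : ℝ) ^ 2 * s) := by
    have := hs.1
    positivity
  calc _ = ((dk m).eval s ^ 2 * ((m : ℝ) ^ 2 * s)) ^ 4 := by ring
    _ ≤ 4 ^ 4 := pow_le_pow_left₀ h0 h 4
    _ = 256 := by norm_num

theorem qp_eval (m : ℕ) (s : ℝ) : s * (qp m).eval s = 1 - (rp m).eval s := by
  have := congrArg (eval s) (X_mul_qp m)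
  simpa using this

theorem qp_abs (m : ℕ) {s : ℝ} (hs : s ∈ Set.Icc (0 : ℝ) 16) :
    |(qp m).eval s| ≤ (m : ℝ) ^ 2 := by
  have key : ∀ s ∈ Set.Ioc (0 : ℝ) 16, |(qp m).eval s| ≤ (m : ℝ) ^ 2 := by
    intro s hs
    have hs' : s ∈ Set.Icc (0 : ℝ) 16 := ⟨hs.1.le, hs.2⟩
    have h1 := qp_eval m s
    obtain ⟨a1, -, a3⟩ := dk_spec m hs'
    obtain ⟨b1, b2⟩ := one_sub_pow_eight a1
    rw [rp_eq, eval_pow] at h1
    have h2 : 0 ≤ (qp m).eval s := by
      by_contra hn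
      push Not at hn
      nlinarith [hs.1]
    rw [abs_of_nonneg h2]
    by_contra hn
    push Not at hn
    nlinarith [hs.1]
  have hc : IsClosed {s : ℝ | |(qp m).eval s| ≤ (m : ℝ) ^ 2} :=
    isClosed_le (continuous_abs.comp (qp m).continuous) continuous_const
  have := hc.closure_subset_iff.2 key
  rw [closure_Ioc (by norm_num)] at this
  exact this hs

end C

theorem rp_spec : ∃ C : ℝ, 1 ≤ C ∧ ∀ m : ℕ, (rp m).eval 0 = 1 ∧ (rp m).natDegree ≤ 8 * m ∧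
    X * qp m = 1 - rp m ∧ (qp m).natDegree ≤ 8 * m ∧
    ∀ s ∈ Set.Icc (0 : ℝ) 16, |(rp m).eval s| ≤ 1 ∧ |(rp m).eval s| * ((m : ℝ) ^ 2 * s) ^ 4 ≤ C ∧
      |(qp m).eval s| ≤ C * (m : ℝ) ^ 2 := by
  refine ⟨256, by norm_num, fun m => ⟨C.rp_zero_eval m, C.natDegree_rp m, C.X_mul_qp m,
    C.natDegree_qp m, fun s hs => ⟨C.rp_abs m hs, C.rp_decay m hs, (C.qp_abs m hs).trans ?_⟩⟩⟩
  have : (0 : ℝ) ≤ (m : ℝ) ^ 2 := by positivity
  linarith

theorem rp_zero : rp 0 = 1 := by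
  simp [rp]

end Vale.Agent.P144Z
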